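import Crest.Agent.N49.Ft.Defs
import Crest.Agent.N49.Md.Defs
import Crest.Agent.N49.Sy.Sok

/-!
# Row 49 (helper18): subsystems of symbol towers are fine
-/

set_option autoImplicit false
set_option linter.unusedSectionVars false

open Finset

noncomputable section

namespace Crest.Agent.N49.Ft

open Rm Md Sy

variable {τ L C1 : Type} [Fintype τ] [DecidableEq τ] [Fintype L] [DecidableEq L] [Fintype C1]
  [DecidableEq C1] {B : Bs L} {W : Finset (Finset τ)} {blk : τ → L} {T1 : TT L C1}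
  {e : Gd.Lv T1 → B.SC W} {Q : ℕ}

open Classical in
/-- push a point forward along `e` -/
def Fi.fw (e : Gd.Lv T1 → B.SC W) (p : C1 ⊕ L → ℝ) : B.SC W ⊕ L → ℝ :=
  Sum.elim (fun v => if h : ∃ c, e c = v then p (.inl h.choose.1) else 0) fun ℓ => p (.inr ℓ)

theorem Fi.fw_e (hi : Function.Injective e) (p : C1 ⊕ L → ℝ) (c : Gd.Lv T1) :
    Fi.fw e p (.inl (e c)) = p (.inl c.1) := by
  have h : ∃ c', e c' = e c := ⟨c, rfl⟩
  have := hi h.choose_spec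
  simp only [Fi.fw, Sum.elim_inl, dif_pos h, this]

/-- the errors of a subsystem at any real point -/
theorem Fi.phi (h : Em T1 e (B.SY W blk)) (p : C1 ⊕ L → ℝ) (c : Gd.Lv T1) :
    T1.Φ p c.1 = (B.SY W blk).Φ (Fi.fw e p) (e c) := by
  rw [← h.Φ 0 (Fi.fw e p) c]
  refine (h.ok.dat c.1 c.2).1 _ _ fun v _ hv => ?_
  rcases v with v | v
  · have hv' : (T1.ty v).Nonempty := hv
    simp only [rr, Sum.elim_inl, dif_pos hv']
    exact (Fi.fw_e h.inj p ⟨v, hv'⟩).symm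
  · rfl

/-- a symbol sees only the subwords -/
theorem Fi.sy_sub (q q' : B.SC W ⊕ L → ℝ) (w : B.SC W)
    (hq : ∀ v : B.SC W, v.1.2 ⊆ w.1.2 → q (.inl v) = q' (.inl v)) :
    (B.SY W blk).Φ q w = (B.SY W blk).Φ q' w := by
  simp only [Bs.SY, symT, sΦ, sP]
  congr 1
  exact sy_congr' _ _ fun c A hA _ => sx_ext fun _ => hq _ hA

/-- **FINE** -/
theorem fine_of (h : Em T1 e (B.SY W blk)) (j : L) (cl : τ → Fin Q) (fn : C1 → Fin Q)
    (hfn : ∀ c : Gd.Lv T1, ∀ a ∈ (e c).1.2, blk a = j → fn c.1 = cl a) : Fine T1 j fn := by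
  intro c hc p p' _ hp
  have hc' : (T1.ty c).Nonempty := ⟨j, hc⟩
  refine (Fi.phi h p ⟨c, hc'⟩).trans ((Fi.sy_sub _ _ _ fun v hv => ?_).trans
    (Fi.phi h p' ⟨c, hc'⟩).symm)
  by_cases hv' : ∃ c', e c' = v
  · obtain ⟨c', rfl⟩ := hv'
    rw [Fi.fw_e h.inj, Fi.fw_e h.inj]
    refine hp _ (or_iff_not_imp_left.2 fun hj => ?_)
    rw [not_not, ← h.ty] at hj
    obtain ⟨a, ha, haj⟩ := mem_image.1 hj
    exact (hfn c' a ha haj).trans (hfn ⟨c, hc'⟩ a (hv ha) haj).symm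
  · simp only [Fi.fw, Sum.elim_inl, dif_neg hv']

open Classical in
/-- the clone of the `j`-letter of the word of `c` -/
def fnc (e : Gd.Lv T1 → B.SC W) (blk : τ → L) (j : L) (cl : τ → Fin Q) (k0 : Fin Q) (c : C1) :
    Fin Q :=
  if h : ∃ x : Gd.Lv T1 × τ, x.1.1 = c ∧ x.2 ∈ (e x.1).1.2 ∧ blk x.2 = j then cl h.choose.2 else k0

theorem fnc_eq {s : ℕ} (hW : Wf s W blk) (j : L) (cl : τ → Fin Q) (k0 : Fin Q) (c : Gd.Lv T1)
    (a : τ) (ha : a ∈ (e c).1.2) (hj : blk a = j) : fnc e blk j cl k0 c.1 = cl a := by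
  have h : ∃ x : Gd.Lv T1 × τ, x.1.1 = c.1 ∧ x.2 ∈ (e x.1).1.2 ∧ blk x.2 = j :=
    ⟨(c, a), rfl, ha, hj⟩
  obtain ⟨h1, h2, h3⟩ := h.choose_spec
  rw [Subtype.ext h1] at h2
  rw [fnc, dif_pos h, hW.inj _ (e c).2.2.1 h2 ha (h3.trans hj.symm)]

theorem fine {s : ℕ} (h : Em T1 e (B.SY W blk)) (hW : Wf s W blk) (j : L) (cl : τ → Fin Q)
    (k0 : Fin Q) : Fine T1 j (fnc e blk j cl k0) :=
  fine_of h j cl _ (fnc_eq hW j cl k0)

end Crest.Agent.N49.Ft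

end
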