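import Crest.Agent.N49.Ft.Defs

/-!
# Row 49 (helper63): data and relations of the refined rectangle (`RFR`)
-/

set_option autoImplicit false
set_option linter.unusedSectionVars false

open Finset Matrix

noncomputable section

namespace Crest.Agent.N49.Ft

open Po Rm Rm.TT

namespace Rr

variable {L C : Type} [Fintype L] [DecidableEq L] [Fintype C] [DecidableEq C] {Q : ℕ}
  {T : TT L C} {j x : L} {fn : C → Fin Q} {a1 a2 : ℕ}

/-- the old letters are not refined -/
theorem mem_x (c : T.CC j (Fin 4)) :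
    (.inl (.inl x) : LR L Q) ∈ (RF T j fn a1 a2).ty c ↔ .inl x ∈ (T.rect j a1 a2).ty c := by
  rcases c with c | ⟨c, k⟩
  · simp [RF, TT.cl]
  · simp only [RF, TT.cl, Sum.elim_inr, mem_insert]
    split_ifs <;> simp

theorem ne_ty (c : T.CC j (Fin 4)) (h : ((RF T j fn a1 a2).ty c).Nonempty) :
    ((T.rect j a1 a2).ty c).Nonempty := by
  rcases c with c | ⟨c, k⟩
  · exact (image_nonempty.1 h).image _
  · exact insert_nonempty _ _

theorem dis_inl (c : C) : Disjoint ((RF T j fn a1 a2).ty (.inl c)) (S1 (sl L Q)) := by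
  simp [RF, S1, sl, disjoint_left]

theorem dis_inr (c : T.Bl j) {k : Fin 4} (h : k ≠ 1) :
    Disjoint ((RF T j fn a1 a2).ty (.inr (c, k))) (S1 (sl L Q)) := by
  simp only [RF, Sum.elim_inr, disjoint_insert_left, if_neg h]
  refine ⟨?_, by simp [S1, sl, disjoint_left]⟩
  split_ifs <;> simp [S1, sl]

theorem sub_S1 {A : Finset (LR L Q)} (h : Disjoint A (S1 (sl L Q))) : A ⊆ univ \ S1 (sl L Q) :=
  subset_sdiff.2 ⟨subset_univ _, h⟩

theorem co_cmb (a b : ℝ) (p p' : T.CC j (Fin 4) ⊕ LR L Q → ℝ) :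
    co ((RF T j fn a1 a2).cmb (.inl (.inl x)) a b p p') =
      (T.rect j a1 a2).cmb (.inl x) a b (co p) (co p') := funext fun v => by
  rcases v with c | l
  · exact if_congr (mem_x c) rfl rfl
  · exact if_congr (by simp [tv]) rfl rfl

theorem co_off {p p' : T.CC j (Fin 4) ⊕ LR L Q → ℝ}
    (h : ∀ v, .inl (.inl x) ∉ (RF T j fn a1 a2).tv v → p v = p' v) (v)
    (k : .inl x ∉ (T.rect j a1 a2).tv v) : co p v = co p' v := by
  rcases v with c | l
  · exact h _ fun z => k ((mem_x c).1 z)
  · exact h _ (by simpa [tv] using k)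

/-- the corners without the second letters -/
theorem dat (hx : x ≠ j) {F : Fm L C} (h : T.Dat univ {x} F) {α : Fin 4 → ℤ} (h1 : α 1 = 0) :
    (RF T j fn a1 a2).Dat (univ \ S1 (sl L Q)) {.inl (.inl x)} fun p =>
      F (T.pos j (fun _ => false) 1 α (co p)) := by
  refine ⟨fun p p' e => h.1 _ _ fun v _ n => ?_, fun l hl a b p p' e => ?_⟩
  · have e0 : T.p0 j (co p) v = T.p0 j (co p') v := by
      rcases v with c | l
      · exact e (.inl (.inl c)) (sub_S1 (dis_inl c)) (n.image _)
      · exact e (.inr (.inl (.inl l))) (sub_S1 (by simp [tv, S1, sl])) (singleton_nonempty _)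
    by_cases k : j ∈ T.tv v
    · rw [pos_in _ _ _ k, pos_in _ _ _ k, e0]
      refine congrArg _ (sum_congr rfl fun i _ => ?_)
      by_cases z : i = 1
      · rw [z, h1, Int.cast_zero, zero_mul, zero_mul]
      refine congrArg _ ?_
      rcases v with c | l
      · refine (dif_pos k).trans (Eq.trans ?_ (dif_pos k).symm)
        exact e (.inl (.inr (⟨c, k⟩, i))) (sub_S1 (dis_inr _ z)) (insert_nonempty _ _)
      · have : l = j := (mem_singleton.1 k).symm
        exact (if_pos this).trans (if_pos this).symm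
    · rw [pos_out _ _ _ k, pos_out _ _ _ k, e0]
  · rw [mem_singleton.1 hl] at e ⊢
    have := (Dat.pos j (fun _ : Fin 4 => false) ![a1, a1, a2, a2] 1 α
      (by simpa using hx.symm) h).2 (.inl x) (by simp) a b (co p) (co p') (co_off e)
    exact (congrArg (fun q => F (T.pos j (fun _ => false) 1 α q)) (co_cmb a b p p')).trans this

/-- refined points -/
def lf {C' : Type} (p : C' ⊕ (L ⊕ Fin 4) → ℝ) : C' ⊕ LR L Q → ℝ :=
  Sum.elim (fun c => p (.inl c)) (Sum.elim (fun l => p (.inr l)) fun _ => 1)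

theorem co_lf {C' : Type} (p : C' ⊕ (L ⊕ Fin 4) → ℝ) : co (lf (Q := Q) p) = p :=
  funext fun v => by cases v <;> rfl

theorem pos_sg (p : T.CC j (Fin 4) ⊕ LR L Q → ℝ) (α : Fin 4 → ℤ) :
    T.pos j (fun _ => false) 1 α (co (pm (sg T j) p)) =
      T.pos j (fun _ => false) 1 (α ∘ Equiv.swap 0 1) (co p) := funext fun v => by
  have e0 : T.p0 j (co (pm (sg T j) p)) v = T.p0 j (co p) v := by cases v <;> rfl
  by_cases k : j ∈ T.tv v
  · rw [pos_in _ _ _ k, pos_in _ _ _ k, e0, ← Equiv.sum_comp (Equiv.swap (0 : Fin 4) 1)]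
    refine congrArg _ (sum_congr rfl fun i _ => congrArg _ ?_)
    rcases v with c | l
    · refine (dif_pos k).trans (Eq.trans ?_ (dif_pos k).symm)
      change p (.inl (.inr (⟨c, k⟩, Equiv.swap 0 1 (Equiv.swap 0 1 i)))) = _
      rw [Equiv.swap_apply_self]; rfl
    · have : l = j := (mem_singleton.1 k).symm
      exact (if_pos this).trans (if_pos this).symm
  · rw [pos_out _ _ _ k, pos_out _ _ _ k, e0]

/-- relations descend to the rectangle -/
theorem rel {w : T.CC j (Fin 4) → ℤ} {B : ℝ} {G : Fm (LR L Q) (T.CC j (Fin 4))}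
    (h : (RF T j fn a1 a2).Rel univ {.inl (.inl x)} w 1 B G) :
    (T.rect j a1 a2).Rel univ {.inl x} w 1 B fun p => G (lf p) := by
  obtain ⟨I, ⟨⟨i1, i2⟩, i3⟩, i4⟩ := h
  have fb : ∀ p ∈ (T.rect j a1 a2).Fib {.inl x} w,
      lf p ∈ (RF T j fn a1 a2).Fib {.inl (.inl x)} w := fun p hp => by
    refine ⟨fun c k => hp.1 c ?_, fun l => ?_⟩
    · rw [disjoint_singleton_right] at k ⊢
      exact fun z => k ((mem_x c).2 z)
    · rcases l with l | l
      · exact (hp.2 l).trans (if_congr (by simp) rfl rfl)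
      · exact (if_neg (by simp)).symm
  refine ⟨fun p => I (lf p), ⟨⟨fun p p' e => i1 _ _ fun v _ n => ?_, fun l hl a b p p' e => ?_⟩,
    fun p hp ip => i3 _ (fb p hp) fun v => ?_⟩, fun p hp cu => i4 _ (fb p hp) fun c _ k => ?_⟩
  · rcases v with c | l | l
    · exact e (.inl c) (subset_univ _) (ne_ty c n)
    · exact e (.inr l) (subset_univ _) (singleton_nonempty _)
    · rfl
  · rw [mem_singleton.1 hl] at e ⊢
    refine (congrArg I (funext fun v => ?_)).trans (i2 _ (mem_singleton_self _) a b (lf p) (lf p')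
      fun v k => ?_)
    · rcases v with c | l | l
      · exact if_congr (mem_x c).symm rfl rfl
      · exact if_congr (by simp [tv]) rfl rfl
      · exact (if_neg (by simp [tv])).symm
    · rcases v with c | l | l
      · exact e _ fun z => k ((mem_x c).2 z)
      · exact e _ (by simpa [tv] using k)
      · rfl
  · rcases v with c | l | l
    exacts [ip (.inl c), ip (.inr l), ⟨1, Int.cast_one.symm⟩]
  · change |(T.rect j a1 a2).Φ (co (lf p)) c| ≤ 1
    rw [co_lf]
    refine cu c (subset_univ _) fun z => k ?_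
    rw [disjoint_singleton_right] at z ⊢
    exact fun m => z ((mem_x c).1 m)

end Rr

/-- **data and relations of the refined rectangle** -/
theorem rfr : RFR := by
  intro L C _ _ _ _ Q T j x fn a1 a2 F _ hx h
  refine ⟨(Rr.dat hx h (α := cv 0) rfl).sub (Rr.dat hx h (α := cv 1) rfl),
    fun H y y' e k => ?_, funext fun y => ?_, fun w B k => ?_⟩
  · refine (congrArg (· ∈ H) (funext fun c => ?_)).mp k
    by_cases m : j ∈ T.ty c
    · refine (dif_pos m).trans (Eq.trans ?_ (dif_pos m).symm)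
      simp [Fin.sum_univ_four, e _ (Rr.dis_inl c), e _ (Rr.dis_inr ⟨c, m⟩ (k := 0) (by decide)),
        e _ (Rr.dis_inr ⟨c, m⟩ (k := 2) (by decide))]
    · refine (dif_neg m).trans (Eq.trans ?_ (dif_neg m).symm)
      exact e _ (Rr.dis_inl c)
  · have : co (cf y : _ ⊕ LR L Q → ℝ) = cf y := funext fun v => by cases v <;> rfl
    exact congrArg (fun p => Real.exp (-Real.pi * ∑ c, (T.rect j a1 a2).Φ p c ^ 2)) this
  · have := Rr.rel k
    rw [RR, upA_univ, image_singleton]
    refine (congrArg _ (funext fun p => ?_)).mp this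
    have e2 : cv 0 ∘ Equiv.swap (0 : Fin 4) 1 = cv 2 := by decide
    have e3 : cv 1 ∘ Equiv.swap (0 : Fin 4) 1 = cv 3 := by decide
    simp only [df, Gt, Rr.pos_sg, Rr.co_lf, e2, e3]
    ring

end Crest.Agent.N49.Ft

end
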