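import Crest.Agent.N49.Ft.Defs

/-!
# Row 49 (helper17): the refined rectangle is symmetric
-/

set_option autoImplicit false
set_option linter.unusedSectionVars false

open Finset

noncomputable section

namespace Crest.Agent.N49.Ft

open Rm Rm.TT

namespace Rs

section wm
variable {L C L' C' : Type} [Fintype L] [DecidableEq L] [Fintype C] [DecidableEq C] [Fintype L']
  [DecidableEq L'] [Fintype C'] [DecidableEq C'] {T : TT L C} {T' : TT L' C'} {f : L → L'}
  {ι : (C' ⊕ L' → ℝ) → C ⊕ L → ℝ}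

/-- `ι` reads each coordinate from a coordinate of the renamed type or puts it to zero -/
theorem wm_dat (hf : Function.Injective f) (h : ∀ v, (∃ v', T'.tv v' = (T.tv v).image f ∧
    ∀ p, ι p v = p v') ∨ ∀ p, ι p v = 0) {A M : Finset L} {F : Fm L C} (k : T.Dat A M F) (r : ℝ) :
    T'.Dat (A.image f) (M.image f) fun p => r * F (ι p) := by
  refine ⟨fun p p' e => congrArg (r * ·) (k.1 _ _ fun v a b => ?_), fun _ m a b p p' e => ?_⟩
  · rcases h v with ⟨v', x, z⟩ | z
    · rw [z, z, e v' (x ▸ image_subset_image a) (x ▸ b.image f)]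
    · rw [z, z]
  · obtain ⟨ℓ, m', rfl⟩ := mem_image.1 m
    have e1 : ι (T'.cmb (f ℓ) a b p p') = T.cmb ℓ a b (ι p) (ι p') := funext fun v => by
      rcases h v with ⟨v', x, z⟩ | z
      · simp only [cmb, z, x, hf.mem_finset_image]
      · simp [cmb, z]
    have := k.2 ℓ m' a b (ι p) (ι p') fun v n => by
      rcases h v with ⟨v', x, z⟩ | z
      · rw [z, z, e v' (by rwa [x, hf.mem_finset_image])]
      · rw [z, z]
    simp only [e1, this]; ring
end wm

variable {L C : Type} [Fintype L] [DecidableEq L] [Fintype C] [DecidableEq C] {Q : ℕ}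
  {T : TT L C} {j : L} {fn : C → Fin Q} {a1 a2 : ℕ}

/-- the refined letter of a clone -/
def lam (L : Type) (x : Fin 4) (k : Fin Q) : LR L Q :=
  if x = 0 then .inr (false, k) else if x = 1 then .inr (true, k) else .inl (.inr x)
/-- the renaming -/
def fr (j : L) (x : Fin 4) (k : Fin Q) (ℓ : L) : LR L Q := if ℓ = j then lam L x k else .inl (.inl ℓ)
/-- its left inverse -/
def gb (j : L) : LR L Q → L := Sum.elim (Sum.elim id fun _ => j) fun _ => j

theorem gb_lam (x : Fin 4) (k : Fin Q) : gb j (lam L x k) = j := by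
  unfold lam; split_ifs <;> rfl
theorem gb_fr (x : Fin 4) (k : Fin Q) (ℓ : L) : gb j (fr j x k ℓ) = ℓ := by
  unfold fr; split_ifs with h
  exacts [h ▸ gb_lam x k, rfl]
theorem fr_inj (x : Fin 4) (k : Fin Q) : Function.Injective (fr j x k) :=
  Function.LeftInverse.injective (gb_fr x k)
theorem i_inj : Function.Injective fun ℓ : L => (.inl (.inl ℓ) : LR L Q) := fun _ _ h => by
  simpa using h
theorem im_of {S : Finset L} (h : j ∉ S) (x : Fin 4) (k : Fin Q) :
    S.image (fr j x k) = S.image fun ℓ => .inl (.inl ℓ) :=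
  image_congr fun _ m => if_neg (ne_of_mem_of_not_mem m h)

theorem ty_inl (c : C) : (RF T j fn a1 a2).ty (.inl c) = (T.ty c).image fun ℓ => .inl (.inl ℓ) := rfl
theorem ty_ins (c : T.Bl j) (x : Fin 4) : (RF T j fn a1 a2).ty (.inr (c, x)) =
    insert (lam L x (fn c.1)) (((T.ty c.1).erase j).image fun ℓ => .inl (.inl ℓ)) := rfl
theorem ty_inr (c : T.Bl j) (x : Fin 4) :
    (RF T j fn a1 a2).ty (.inr (c, x)) = (T.ty c.1).image (fr j x (fn c.1)) := by
  conv_rhs => rw [← insert_erase c.2, image_insert, im_of (notMem_erase j _)]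
  rw [ty_ins, fr, if_pos rfl]
theorem gb_inl (c : C) : ((RF T j fn a1 a2).ty (.inl c)).image (gb j) = T.ty c := by
  rw [ty_inl, image_image]; exact image_id
theorem gb_inr (c : T.Bl j) (x : Fin 4) :
    ((RF T j fn a1 a2).ty (.inr (c, x))).image (gb j) = T.ty c.1 := by
  rw [ty_inr, image_image, show gb j ∘ fr j x (fn c.1) = id from funext (gb_fr _ _), image_id]

variable (T j fn) in
/-- one clone of one direction -/
def iz (x : Fin 4) (k : Fin Q) (p : T.CC j (Fin 4) ⊕ LR L Q → ℝ) : C ⊕ L → ℝ :=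
  Sum.elim (fun c => if h : j ∈ T.ty c then (if fn c = k then p (.inl (.inr (⟨c, h⟩, x))) else 0)
    else p (.inl (.inl c))) fun ℓ => if ℓ = j then 0 else p (.inr (.inl (.inl ℓ)))

theorem phi_px (c : T.Bl j) (x : Fin 4) (p : T.CC j (Fin 4) ⊕ LR L Q → ℝ) :
    (RF T j fn a1 a2).Φ p (.inr (c, x)) =
      2 ^ ![a1, a1, a2, a2] x * T.Φ (T.px j (fun _ => false) x (co p)) c.1 := rfl
theorem phi_inr (h : Fine T j fn) (c : T.Bl j) (x : Fin 4) (p : T.CC j (Fin 4) ⊕ LR L Q → ℝ) :
    (RF T j fn a1 a2).Φ p (.inr (c, x)) =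
      2 ^ ![a1, a1, a2, a2] x * T.Φ (iz T j fn x (fn c.1) p) c.1 := by
  rw [phi_px, h c.1 c.2 _ (iz T j fn x (fn c.1) p) (fun ℓ => ?_) fun c' k => ?_]
  · simp [px, iz, co]
  · by_cases m : j ∈ T.ty c'
    · simp [px, iz, co, m, k.resolve_left (not_not.2 m)]
    · simp [px, iz, co, m]

theorem dat (o : T.Ok) (h : Fine T j fn) (d : T.CC j (Fin 4))
    (n : ((RF T j fn a1 a2).ty d).Nonempty) : (RF T j fn a1 a2).Dat ((RF T j fn a1 a2).ty d)
      ((RF T j fn a1 a2).ty d) fun p => (RF T j fn a1 a2).Φ p d := by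
  rcases d with c | ⟨c, x⟩
  · have := wm_dat (T' := RF T j fn a1 a2) (ι := fun p => T.p0 j (co p)) i_inj (fun v => by
      rcases v with c' | ℓ
      · exact .inl ⟨.inl (.inl c'), rfl, fun _ => rfl⟩
      · exact .inl ⟨.inr (.inl (.inl ℓ)), by simp [tv], fun _ => rfl⟩)
      (o.dat c (image_nonempty.1 n)) 1
    simp only [one_mul] at this
    exact this
  · simp only [phi_inr h, ty_inr]
    refine wm_dat (ι := iz T j fn x (fn c.1)) (fr_inj _ _) (fun v => ?_) (o.dat c.1 ⟨j, c.2⟩) _
    rcases v with c' | ℓ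
    · by_cases m : j ∈ T.ty c'
      · by_cases k : fn c' = fn c.1
        · exact .inl ⟨.inl (.inr (⟨c', m⟩, x)), k ▸ ty_inr ⟨c', m⟩ x, fun _ => by simp [iz, m, k]⟩
        · exact .inr fun _ => by simp [iz, m, k]
      · exact .inl ⟨.inl (.inl c'), (im_of m _ _).symm, fun _ => by simp [iz, m]⟩
    · by_cases m : ℓ = j
      · exact .inr fun _ => by simp [iz, m]
      · exact .inl ⟨.inr (.inl (.inl ℓ)), by simp [tv, fr, m], fun _ => by simp [iz, m]⟩

theorem ok (o : T.Ok) (h : Fine T j fn) : (RF T j fn a1 a2).Ok := by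
  refine ⟨dat o h, fun d p e => ?_, fun S p p' e1 e2 e3 => funext fun v => ?_⟩
  · rcases d with c | ⟨c, x⟩
    · exact o.dead c _ (image_eq_empty.1 e)
    · exact absurd e (insert_ne_empty _ _)
  rcases v with d | ℓ
  swap
  · exact e1 ℓ
  by_cases hd : (RF T j fn a1 a2).ty d = S
  swap
  · exact e2 d hd
  rcases d with c | ⟨c, x⟩
  · exact congrFun (o.inj (T.ty c) (T.p0 j (co p)) (T.p0 j (co p')) (fun ℓ => e1 _)
      (fun c' n => e2 (.inl c') fun k => n (by rw [← gb_inl (j := j) (fn := fn) c', k, ← hd, gb_inl]))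
      fun c' k => e3 (.inl c') (by rw [← hd, ty_inl, ty_inl, k])) (.inl c)
  have := congrFun (o.inj (T.ty c.1) (T.px j (fun _ => false) x (co p))
    (T.px j (fun _ => false) x (co p')) (fun ℓ => by simp [px, co, e1]) (fun c' n => ?_)
    fun c' k => ?_) (.inl c.1)
  · simpa [px, co, c.2] using this
  · by_cases m : j ∈ T.ty c'
    · have := e2 (.inr (⟨c', m⟩, x)) fun k => n (by
        rw [← gb_inr (fn := fn) (a1 := a1) (a2 := a2) ⟨c', m⟩ x, k, ← hd, gb_inr])
      simpa [px, co, m] using this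
    · have := e2 (.inl c') fun k => n (by rw [← gb_inl (j := j) (fn := fn) c', k, ← hd, gb_inr])
      simpa [px, co, m] using this
  · have m : j ∈ T.ty c' := k ▸ c.2
    have a : (RF T j fn a1 a2).Φ p (.inr (⟨c', m⟩, x)) =
        (RF T j fn a1 a2).Φ p' (.inr (⟨c', m⟩, x)) := by
      by_cases n : (RF T j fn a1 a2).ty (.inr (⟨c', m⟩, x)) = S
      · exact e3 _ n
      refine (dat o h _ (insert_nonempty _ _)).1 p p' fun v s _ => ?_
      rcases v with d | ℓ
      · refine e2 d fun z => n (eq_of_subset_of_card_le (z ▸ s) ?_).symm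
        rw [← hd, ty_inr, ty_inr, card_image_of_injective _ (fr_inj _ _),
          card_image_of_injective _ (fr_inj _ _), k]
      · exact e1 ℓ
    exact mul_left_cancel₀ (by positivity) a

theorem mem_sl {b : Bool} {k : Fin Q} {d : T.CC j (Fin 4)} :
    sl L Q b k ∈ (RF T j fn a1 a2).ty d ↔
      ∃ c : T.Bl j, d = .inr (c, if b then 1 else 0) ∧ fn c.1 = k := by
  rcases d with c | ⟨c, x⟩
  · simp [ty_inl, sl]
  · cases b <;> fin_cases x <;> simp [ty_ins, sl, lam, eq_comm]

theorem ta_pos {c : T.Bl j} {k : Fin Q} (h : fn c.1 = k) (x : Fin 4) :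
    ta T j fn k (.inr (c, x)) = .inr (c, Equiv.swap 0 1 x) := if_pos h
theorem ta_neg {c : T.Bl j} {k : Fin Q} (h : fn c.1 ≠ k) (x : Fin 4) :
    ta T j fn k (.inr (c, x)) = .inr (c, x) := if_neg h

theorem sw_fix {c : T.Bl j} {x : Fin 4}
    (h : ∀ b, sl L Q b (fn c.1) ∉ (RF T j fn a1 a2).ty (.inr (c, x))) : Equiv.swap 0 1 x = x :=
  Equiv.swap_apply_of_ne_of_ne (fun n => h false (mem_sl.2 ⟨c, by rw [n]; rfl, rfl⟩))
    fun n => h true (mem_sl.2 ⟨c, by rw [n]; rfl, rfl⟩)

theorem im_sw (S : Finset L) (k : Fin Q) : (S.image fun ℓ => (.inl (.inl ℓ) : LR L Q)).image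
    (Equiv.swap (sl L Q false k) (sl L Q true k)) = S.image fun ℓ => .inl (.inl ℓ) := by
  rw [image_image]
  exact image_congr fun ℓ _ => Equiv.swap_apply_of_ne_of_ne (by simp [sl]) (by simp [sl])

end Rs

open Rs in
theorem rfs : RFS := by
  intro L C _ _ _ _ Q T j x fn a1 a2 o h _
  refine ⟨ok o h, fun b b' k k' e => by simpa [sl] using e, fun b k => by simp [sl],
    fun d b b' k k' m m' => ?_, fun k d => ?_, fun k d m m' => ?_, fun k d => ?_,
    fun k p d => ?_, fun d m => ?_, fun d b k m => ?_⟩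
  · obtain ⟨c, e, rfl⟩ := mem_sl.1 m
    obtain ⟨c', e', rfl⟩ := mem_sl.1 m'
    rw [e] at e'
    obtain ⟨rfl, z⟩ := Prod.mk.inj (Sum.inr.inj e')
    exact ⟨by revert z; cases b <;> cases b' <;> simp, rfl⟩
  · rcases d with c | ⟨c, y⟩
    · rfl
    · by_cases n : fn c.1 = k
      · rw [ta_pos n, ta_pos n, Equiv.swap_apply_self]
      · rw [ta_neg n, ta_neg n]
  · rcases d with c | ⟨c, y⟩
    · rfl
    · by_cases n : fn c.1 = k
      · subst n
        rw [ta_pos rfl, sw_fix fun b => by cases b; exacts [m, m']]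
      · rw [ta_neg n]
  · rcases d with c | ⟨c, y⟩
    · exact (im_sw _ k).symm
    · by_cases n : fn c.1 = k
      · rw [ta_pos n, ty_ins, ty_ins, image_insert, im_sw, n]
        congr 1
        fin_cases y <;> simp [lam, sl, Equiv.swap_apply_def]
      · rw [ta_neg n, ty_ins, image_insert, im_sw]
        congr 1
        fin_cases y <;> simp [lam, sl, Equiv.swap_apply_def, n]
  · rcases d with c | ⟨c, y⟩
    · refine congrArg (T.Φ · c) (funext fun v => ?_)
      rcases v with c' | ℓ <;> rfl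
    · by_cases n : fn c.1 = k
      · rw [ta_pos n, phi_inr h, phi_inr h]
        congr 2
        · fin_cases y <;> simp [Equiv.swap_apply_def]
        · funext v
          rcases v with c' | ℓ
          · by_cases m : j ∈ T.ty c'
            · by_cases z : fn c' = fn c.1
              · simp [iz, pm, m, z, ta_pos (c := ⟨c', m⟩) (z.trans n)]
              · simp [iz, m, z]
            · simp [iz, pm, m, ta]
          · simp [iz, pm]
      · rw [ta_neg n, phi_inr h, phi_inr h]
        congr 2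
        funext v
        rcases v with c' | ℓ
        · by_cases m : j ∈ T.ty c'
          · by_cases z : fn c' = fn c.1
            · simp [iz, pm, m, z, ta_neg (c := ⟨c', m⟩) (z ▸ n)]
            · simp [iz, m, z]
          · simp [iz, pm, m, ta]
        · simp [iz, pm]
  · rcases d with c | ⟨c, y⟩
    · rfl
    · exact congrArg (fun y => Sum.inr (c, y)) (sw_fix fun b => m b _)
  · obtain ⟨c, rfl, e⟩ := mem_sl.1 m
    exact (ta_pos e _).symm

end Crest.Agent.N49.Ft

end
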