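import Crest.Agent.N49.Ft.Defs
import Crest.Agent.N49.Rm.Op

/-!
# Row 49 (helper82): relations of a deleted tower
-/

set_option autoImplicit false
set_option linter.unusedSectionVars false

open Finset Matrix

noncomputable section

namespace Crest.Agent.N49.Ft

open Po Rm Rm.TT

namespace Rd
variable {L C : Type} [Fintype L] [DecidableEq L] [Fintype C] [DecidableEq C] {U : TT L C}
  {S : Finset L} {x : L} {w : C → ℤ} {F : Fm L C}

theorem ok_dls (h : U.Ok) (S : Finset L) : (U.dls S).Ok := by
  induction S using Finset.induction_on with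
  | empty => rwa [dls_empty]
  | insert ℓ S _ ih => rw [dls_insert]; exact ih.del ℓ

theorem dat_dls {A M : Finset L} (h : U.Dat A M F) (S : Finset L) (d : Disjoint A S) :
    (U.dls S).Dat A M F := by
  induction S using Finset.induction_on with
  | empty => rwa [dls_empty]
  | insert ℓ S _ ih =>
    rw [disjoint_insert_right] at d
    rw [dls_insert]; exact (ih d.2).del d.1

theorem sub_iff {A : Finset L} : A ⊆ univ \ S ↔ Disjoint A S := by
  simp [subset_sdiff]

variable (U S w) in
/-- reset the coordinates that meet `S` -/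
def fx (p : C ⊕ L → ℝ) : C ⊕ L → ℝ :=
  fun v => if Disjoint (U.tv v) S then p v else cf w v

theorem fx_in (p : C ⊕ L → ℝ) {v : C ⊕ L} (h : Disjoint (U.tv v) S) : fx U S w p v = p v :=
  if_pos h

theorem fx_out (p : C ⊕ L → ℝ) {v : C ⊕ L} (h : ¬ Disjoint (U.tv v) S) :
    fx U S w p v = cf w v := if_neg h

theorem mem_tv (hx : x ∉ S) {v : C ⊕ L} :
    x ∈ (U.dls S).tv v ↔ x ∈ U.tv v ∧ Disjoint (U.tv v) S := by
  cases v with
  | inl c => exact mem_dls
  | inr ℓ =>
    refine ⟨fun a => ⟨a, ?_⟩, And.left⟩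
    have : x = ℓ := mem_singleton.1 a
    subst this
    exact disjoint_singleton_left.2 hx

theorem pt_eq (n : (U.dls S).Bl x → ℤ) {v : C ⊕ L} (h : Disjoint (U.tv v) S) :
    pt U x w (ex U S x n) v = (U.dls S).jr x (cf w) (zc n) 0 v := by
  cases v with
  | inl c =>
    by_cases k : x ∈ U.ty c
    · have k' : x ∈ (U.dls S).ty c := mem_dls.2 ⟨k, h⟩
      simp [pt, jr, jn, zc, k, k']
    · have k' : x ∉ (U.dls S).ty c := fun a => k (mem_dls.1 a).1
      simp [pt, jr, k, k']
  | inr ℓ => rfl

theorem rel (h : U.Ok) (hx : x ∉ S) (hF : U.Ty (univ \ S) F) {q : ℕ} {B : ℝ}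
    (r : (U.dls S).Rel univ {x} w q B F) : U.Rel (univ \ S) {x} w q B F := by
  obtain ⟨I, ⟨⟨ty, li⟩, iz⟩, sm⟩ := r
  have fb : ∀ p ∈ U.Fib {x} w, fx U S w p ∈ (U.dls S).Fib {x} w := fun p hp =>
    ⟨fun c d => by
      by_cases k : Disjoint (U.ty c) S
      · rw [dls_ty k] at d
        exact (fx_in p (v := .inl c) k).trans (hp.1 c d)
      · exact fx_out p (v := .inl c) k, fun ℓ => by
      by_cases k : Disjoint (U.tv (.inr ℓ)) S
      · exact (fx_in p k).trans (hp.2 ℓ)
      · rw [fx_out p k, if_neg]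
        · rfl
        · intro a
          rw [mem_singleton.1 a] at k
          exact k (disjoint_singleton_left.2 hx)⟩
  refine ⟨fun p => I (fx U S w p), ⟨⟨fun p p' e => ty _ _ fun v _ ne => ?_,
    fun ℓ l a b p p' e => ?_⟩, fun p hp ip => iz _ (fb p hp) fun v => ?_⟩, fun p hp cu => ?_⟩
  · by_cases k : Disjoint (U.tv v) S
    · rw [fx_in p k, fx_in p' k]
      refine e v (sub_iff.2 k) ?_
      cases v with
      | inl c =>
        have a : (U.dls S).tv (.inl c) = U.tv (.inl c) := dls_ty k
        exact a ▸ ne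
      | inr ℓ => exact ne
    · rw [fx_out p k, fx_out p' k]
  · rw [mem_singleton.1 l] at e ⊢
    rw [← li x (mem_singleton_self x) a b _ _ fun v hv => ?_]
    · refine congrArg I (funext fun v => ?_)
      by_cases k : Disjoint (U.tv v) S
      · simp only [cmb, fx_in _ k, mem_tv hx, k, and_true]
      · simp only [cmb, fx_out _ k, mem_tv hx, k, and_false, if_false]
    · by_cases k : Disjoint (U.tv v) S
      · rw [fx_in p k, fx_in p' k]
        exact e v fun z => hv ((mem_tv hx).2 ⟨z, k⟩)
      · rw [fx_out p k, fx_out p' k]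
  · by_cases k : Disjoint (U.tv v) S
    · rw [fx_in p k]; exact ip v
    · rw [fx_out p k]
      cases v with
      | inl c => exact ⟨w c, rfl⟩
      | inr ℓ => exact ⟨1, by simp [cf]⟩
  · have := sm _ (fb p hp) fun c _ d => by
      have k := mem_dls.1 (not_not.1 (disjoint_singleton_right.not.1 d))
      rw [dls_Φ k.2, h.phi_cg (p' := p) fun v a => fx_in p (k.2.mono_left a)]
      exact cu c (sub_iff.2 k.2) (disjoint_singleton_right.not.2 (not_not.2 k.1))
    beta_reduce at this ⊢
    rwa [hF _ p fun v a _ => fx_in p (sub_iff.1 a)] at this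

end Rd
open Rd

theorem rld : RLD := by
  intro L C _ _ _ _ U S x w F h hx hF
  have o := ok_dls h S
  have l : (U.dls S).Lin x F := (dat_dls hF S sdiff_disjoint).2 x (mem_singleton_self x)
  refine ⟨o, l, fun n => ?_, fun n => ?_, fun B => rel h hx hF.1⟩
  · rw [hF.1 _ _ fun v a _ => pt_eq n (sub_iff.1 a), l.expand, zero_mul, add_zero]
    rfl
  · have e := o.sum_sq x w (zc n) 0
    rw [zero_smul, sub_zero] at e
    rw [gs, ← e, neg_mul, sum_subtype (p := fun c => x ∈ (U.dls S).ty c) _ (by simp)]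
    refine congrArg (fun t => Real.exp (-(Real.pi * t))) (sum_congr rfl fun c _ => ?_)
    have k := mem_dls.1 c.2
    rw [dls_Φ k.2, h.phi_cg fun v a => (pt_eq n (k.2.mono_left a)).symm]

end Crest.Agent.N49.Ft

end
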