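import Crest.Agent.N49.Ft.Chn
import Crest.Agent.N49.Ft.Rfs
import Crest.Agent.N49.Ft.Rfr
import Crest.Agent.N49.Ft.Rld
import Crest.Agent.N49.Ft.Fine

/-!
# Row 49 (helper96): fat rectangles
-/

namespace Crest.Agent.N49.Ft

theorem fatr : FATR := fatr_of rfs rfr

end Crest.Agent.N49.Ft
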