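import Crest.Agent.N49.Ft.Defs

/-!
# Row 49 (helper96): the chain of transitions
-/

set_option autoImplicit false
set_option linter.unusedSectionVars false

open Finset Matrix MeasureTheory

noncomputable section

namespace Crest.Agent.N49.Ft

open Po Rm Rm.TT Gw

variable {L C D : Type} [Fintype L] [DecidableEq L] [Fintype C] [DecidableEq C] {Q : ℕ}
  {U : TT L C} {x : L} {s : Bool → Fin Q → L} {τ : Fin Q → C → C} {σ : C → C}

theorem mem_S1 {ℓ : L} : ℓ ∈ S1 s ↔ ∃ k, s true k = ℓ := by simp [S1]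

theorem pm_pm (t t' : C → C) (p : C ⊕ L → ℝ) : pm t (pm t' p) = pm (t' ∘ t) p := by
  funext v; cases v <;> rfl

theorem pm_id (p : C ⊕ L → ℝ) : pm id p = p := by funext v; cases v <;> rfl

theorem dat_pm {t : C → C} (h1 : ∀ c, x ∈ U.ty (t c) ↔ x ∈ U.ty c)
    (h2 : ∀ c, (U.ty c).Nonempty → (U.ty (t c)).Nonempty) {I : Fm L C} (h : U.Dat univ {x} I) :
    U.Dat univ {x} fun p => I (pm t p) := by
  refine ⟨fun p p' e => h.1 _ _ ?_, fun ℓ l a b p p' e => ?_⟩
  · rintro (c | ℓ) _ n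
    exacts [e (.inl (t c)) (subset_univ _) (h2 c n), e (.inr ℓ) (subset_univ _) n]
  · obtain rfl := mem_singleton.1 l
    have : pm t (U.cmb ℓ a b p p') = U.cmb ℓ a b (pm t p) (pm t p') := by
      funext v
      rcases v with c | ℓ'
      · simp only [pm, cmb, Sum.elim_inl, tv_inl, h1]
      · rfl
    beta_reduce
    rw [this]
    refine h.2 ℓ l a b _ _ ?_
    rintro (c | ℓ') n
    exacts [e (.inl (t c)) fun k => n ((h1 c).1 k), e (.inr ℓ') n]

theorem bm_loc (h : U.Ok) {ℓ : L} {y y' : C → ℤ}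
    (e : ∀ c c', ℓ ∈ U.ty c → U.ty c' ⊆ U.ty c → ℓ ∉ U.ty c' → y c' = y' c') :
    U.bm ℓ y = U.bm ℓ y' := by
  have k : ∀ n r (c : U.Bl ℓ), U.Φ (U.jr ℓ (cf y) n r) c.1 = U.Φ (U.jr ℓ (cf y') n r) c.1 :=
    fun n r c => h.phi_cg fun v a => by
      by_cases b : ℓ ∈ U.tv v
      · exact jr_in _ _ _ _ b
      · rw [jr_out _ _ _ b, jr_out _ _ _ b]
        rcases v with c' | ℓ'
        · simp only [cf_inl, e c.1 c' c.2 a b]
        · rfl
  have k1 : U.Nm ℓ (cf y) = U.Nm ℓ (cf y') := by ext c c'; exact k _ _ c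
  have k2 : U.of ℓ (cf y) = U.of ℓ (cf y') := funext fun c => k _ _ c
  rw [bm, bm, Mm, Mm, ce, ce, k1, k2]

namespace Sw

theorem mem_τ (h : Sw U x s τ σ) (k : Fin Q) (c : C) {ℓ : L} (a : ∀ b, s b k ≠ ℓ) :
    ℓ ∈ U.ty (τ k c) ↔ ℓ ∈ U.ty c := by
  rw [h.ty, mem_image]
  have e := Equiv.swap_apply_of_ne_of_ne (a false).symm (a true).symm
  refine ⟨fun ⟨ℓ', p, q⟩ => ?_, fun p => ⟨ℓ, p, e⟩⟩
  rwa [← (Equiv.swap _ _).injective (q.trans e.symm)]

theorem ne (h : Sw U x s τ σ) {k e : Fin Q} (n : k ≠ e) (b b' : Bool) : s b k ≠ s b' e :=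
  fun q => n (h.inj _ _ _ _ q).2

theorem fix' (h : Sw U x s τ σ) {k e : Fin Q} (n : k ≠ e) {b : Bool} {c c' : C}
    (a : s b e ∈ U.ty c) (i : U.ty c' ⊆ U.ty c) : τ k c' = c' :=
  h.fix _ _ (fun q => n (h.one c _ _ _ _ (i q) a).2) fun q => n (h.one c _ _ _ _ (i q) a).2

theorem rel_pm (h : Sw U x s τ σ) (k : Fin Q) {y : C → ℤ} {B : ℝ} {F : Fm L C}
    (r : U.Rel univ {x} (y ∘ τ k) 1 B F) : U.Rel univ {x} y 1 B fun p => F (pm (τ k) p) := by
  obtain ⟨I, ⟨a, b⟩, c⟩ := r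
  have m := fun c => h.mem_τ k c fun b => h.nx b k
  have f : ∀ p ∈ U.Fib {x} y, pm (τ k) p ∈ U.Fib {x} (y ∘ τ k) := fun p q =>
    ⟨fun c d => q.1 (τ k c) (by simpa [m] using d), q.2⟩
  refine ⟨fun p => I (pm (τ k) p), ⟨dat_pm m (fun c n => ?_) a, fun p q i => b _ (f p q) ?_⟩,
    fun p q u => c _ (f p q) fun c _ d => ?_⟩
  · rw [h.ty]; exact n.image _
  · rintro (c | ℓ)
    exacts [i (.inl _), i (.inr ℓ)]
  · rw [h.Φ]; exact u _ (subset_univ _) (by simpa [m] using d)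

theorem dis_τ (h : Sw U x s τ σ) (k : Fin Q) {c : C} (d : Disjoint (U.ty c) (S1 s)) :
    Disjoint (U.ty (τ k c)) (S4 s k) := by
  refine disjoint_left.2 fun ℓ a b => ?_
  obtain ⟨n, e0⟩ := mem_erase.1 b
  obtain ⟨e, rfl⟩ := mem_S1.1 e0
  have : k ≠ e := fun q => n (q ▸ rfl)
  exact disjoint_left.1 d ((h.mem_τ k c fun b => h.ne this _ _).1 a) (mem_S1.2 ⟨e, rfl⟩)

theorem ty_df (h : Sw U x s τ σ) (k : Fin Q) {F : Fm L C} (f : U.Ty (univ \ S1 s) F) :
    U.Ty (univ \ S4 s k) (df (τ k) F) := fun p p' e => by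
  have i : univ \ S1 s ⊆ univ \ S4 s k := sdiff_subset_sdiff Subset.rfl (erase_subset _ _)
  refine congrArg₂ (· - ·) (f.mono i p p' e) (f _ _ ?_)
  rintro (c | ℓ) a n
  · refine e (.inl (τ k c)) (subset_sdiff.2 ⟨subset_univ _, h.dis_τ k (subset_sdiff.1 a).2⟩) ?_
    rw [tv_inl, h.ty]; exact n.image _
  · exact e (.inr ℓ) (a.trans i) n

end Sw

/-- the partial exchange -/
def sm (U : TT L C) (s : Bool → Fin Q → L) (σ : C → C) (m : ℕ) (c : C) : C :=
  if ∃ e : Fin Q, e.val < m ∧ ∃ b, s b e ∈ U.ty c then σ c else c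

theorem Sw.sm_succ (h : Sw U x s τ σ) (k : Fin Q) : τ k ∘ sm U s σ k = sm U s σ (k + 1) := by
  funext c
  simp only [Function.comp, sm]
  by_cases a : ∃ e : Fin Q, e.val < k ∧ ∃ b, s b e ∈ U.ty c
  · obtain ⟨e, l, b, p⟩ := id a
    have n : k ≠ e := fun q => by rw [q] at l; omega
    rw [if_pos a, if_pos ⟨e, by omega, b, p⟩, h.σ1 c b e p]
    refine h.fix _ _ (fun q => ?_) fun q => ?_ <;>
    exact n (h.one c _ _ _ _ ((h.mem_τ e c fun b => h.ne n.symm _ _).1 q) p).2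
  · rw [if_neg a]
    split_ifs with a'
    · obtain ⟨e, l, b, p⟩ := a'
      obtain rfl : e = k := Fin.ext (by by_contra q; exact a ⟨e, by omega, b, p⟩)
      exact (h.σ1 c b e p).symm
    · exact h.fix _ _ (fun q => a' ⟨k, by omega, _, q⟩) fun q => a' ⟨k, by omega, _, q⟩

/-- resample the second letters `< m` -/
def J (U : TT L C) (s : Bool → Fin Q → L) (f : (C → ℤ) → ℝ) : ℕ → (C → ℤ) → ℝ
  | 0 => f
  | m + 1 => fun y => if h : m < Q then
      ∫ n, J U s f m (U.jn (s true ⟨m, h⟩) y n) ∂U.bm (s true ⟨m, h⟩) y else J U s f m y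

theorem U1.abs {W : Type*} {f : W → ℝ} (h : U1 f) (w : W) : |f w| ≤ 1 :=
  abs_le.2 ⟨by linarith [(h w).1], (h w).2⟩

theorem mn_bm (h : U.Ok) (ℓ : L) (y : C → ℤ) {W : Type*} {ρ : (U.Bl ℓ → ℤ) → ℝ} (r : U1 ρ)
    (π : (U.Bl ℓ → ℤ) → W) : Mn fun f : W → ℝ => ∫ n, ρ n * f (π n) ∂U.bm ℓ y :=
  haveI := h.bm_prob ℓ y
  Mn.integral _ r π

theorem J_u1 (h : U.Ok) {f : (C → ℤ) → ℝ} (hf : U1 f) : ∀ m, U1 (J U s f m)
  | 0 => hf
  | m + 1 => fun y => by
    simp only [J]
    split_ifs with a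
    · simpa using (mn_bm h _ y U1.one (U.jn (s true ⟨m, a⟩) y)).u1 (J_u1 h hf m)
    · exact J_u1 h hf m y

theorem Ex_J (h : U.Ok) {f : (C → ℤ) → ℝ} (hf : U1 f) : ∀ m, U.Ex (J U s f m) = U.Ex f
  | 0 => rfl
  | m + 1 => by
    by_cases a : m < Q
    · simp only [J, dif_pos a]
      rw [← h.Ex_res _ (U1.abs (J_u1 h hf m)), Ex_J h hf m]
    · simp only [J, dif_neg a]
      exact Ex_J h hf m

theorem J_le (h : U.Ok) {f f' : (C → ℤ) → ℝ} (hf : U1 f) (hf' : U1 f') {a : ℝ} (a0 : 0 ≤ a)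
    (a1 : a ≤ 1) {t : C → C} : ∀ (m : ℕ) (y : C → ℤ), (∀ e : Fin Q, e.val < m →
      (∀ c c', s true e ∈ U.ty c → U.ty c' ⊆ U.ty c → t c' = c') ∧
        ∀ c, s true e ∈ U.ty (t c) → s true e ∈ U.ty c) →
    (∀ y', (∀ c, (∀ e : Fin Q, e.val < m → s true e ∉ U.ty c) → y' c = y c) →
      a * f (y' ∘ t) ≤ f' y') → a * J U s f m (y ∘ t) ≤ J U s f' m y
  | 0, y, _, k => k y fun _ _ => rfl
  | m + 1, y, p, k => by
    have ih := fun y' k' => J_le h hf hf' a0 a1 m y' (fun e l => p e (by omega)) k'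
    simp only [J]
    split_ifs with b
    · obtain ⟨p1, p2⟩ := p ⟨m, b⟩ (by simp)
      have e : ∀ n, U.jn (s true ⟨m, b⟩) (y ∘ t) n = U.jn (s true ⟨m, b⟩) y n ∘ t := fun n =>
        funext fun c => by
          by_cases q : s true ⟨m, b⟩ ∈ U.ty c
          · simp only [Function.comp, p1 c c q Subset.rfl, jn, dif_pos q]
          · rw [jn_out _ _ q, Function.comp, Function.comp, jn_out _ _ fun r => q (p2 c r)]
      rw [bm_loc h (y := y ∘ t) (y' := y) fun c c' q i _ => congrArg y (p1 c c' q i)]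
      have M := mn_bm h (s true ⟨m, b⟩) y U1.one id
      have u := (J_u1 (s := s) h hf m).comp fun n => U.jn (s true ⟨m, b⟩) (y ∘ t) n
      have := (M.smul u a0 a1).ge.trans (M.mono ((U1.const a0 a1).mul u)
        ((J_u1 (s := s) h hf' m).comp (U.jn (s true ⟨m, b⟩) y)) fun n => by
          rw [e]
          refine ih _ fun y' q => k y' fun c r => (q c fun e l => r e (by omega)).trans ?_
          exact jn_out _ _ (r ⟨m, b⟩ (by simp)))
      simpa using this
    · exact ih y fun y' q => k y' fun c r => q c fun e l => r e (by omega)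

theorem chn : CHN := by
  intro L C D _ _ _ _ Q U x s τ σ G A a γ B h hG hA a0 γ0 hQ hR
  classical
  have o := h.ok
  let W := {c // Disjoint (U.ty c) (S1 s)} → ℤ
  let π : (C → ℤ) → W := fun y c => y c.1
  let ι : W → C → ℤ := fun r c => if d : Disjoint (U.ty c) (S1 s) then r ⟨c, d⟩ else 0
  have ιπ : ∀ y c, Disjoint (U.ty c) (S1 s) → ι (π y) c = y c := fun y c d => dif_pos d
  let g : Fin Q → Set (C → ℤ) := fun k =>
    {w | ∀ i, U.Rel (univ \ S4 s k) {x} w 1 B (df (τ k) (G i))}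
  have gc : ∀ k y y', (∀ c, Disjoint (U.ty c) (S4 s k) → y c = y' c) → y ∈ g k → y' ∈ g k :=
    fun k y y' e p i => rel_tr o (h.ty_df k (hG i).1)
      (fun c q _ _ => e c (subset_sdiff.1 q).2) (p i)
  let Kf : Fin Q → (C → ℤ) → (W → ℝ) → ℝ := fun k y f => ∫ n, (g k).indicator 1
    (U.jn (s true k) y n) * f (π (U.jn (s true k) y n ∘ τ k)) ∂U.bm (s true k) y
  have Kc : ∀ k y f, Kf k (ι (π y)) f = Kf k y f := fun k y f => by
    have e : ∀ n c, Disjoint (U.ty c) (S4 s k) →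
        U.jn (s true k) (ι (π y)) n c = U.jn (s true k) y n c := fun n c d => by
      by_cases q : s true k ∈ U.ty c
      · simp only [jn, dif_pos q]
      · rw [jn_out _ _ q, jn_out _ _ q]
        refine ιπ y c (disjoint_left.2 fun ℓ p r => disjoint_left.1 d p (mem_erase.2 ⟨?_, r⟩))
        rintro rfl
        exact q p
    simp only [Kf]
    rw [bm_loc o (y' := y) fun c c' q i n => ιπ y c' (disjoint_left.2 fun ℓ p r => ?_)]
    · refine congrArg _ (funext fun n => congrArg₂ (· * ·) ?_ (congrArg f (funext fun c => ?_)))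
      · by_cases q : U.jn (s true k) y n ∈ g k
        · rw [Set.indicator_of_mem q, Set.indicator_of_mem (gc k _ _ (fun c d => (e n c d).symm) q)]
          rfl
        · rw [Set.indicator_of_notMem q, Set.indicator_of_notMem fun r => q (gc k _ _ (e n) r)]
      · exact e n _ (h.dis_τ k c.2)
    · obtain ⟨e, rfl⟩ := mem_S1.1 r
      exact n ((h.one c _ _ _ _ (i p) q).2 ▸ p)
  let K : ℕ → W → (W → ℝ) → ℝ := fun k r f => if l : k < Q then Kf ⟨k, l⟩ (ι r) f else 0
  have MK : ∀ k y, Mn (Kf k y) := fun k y => mn_bm o _ y ((U1.ind (g k)).comp _) _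
  have hK : ∀ k < Q, ∀ r, Mn (K k r) := fun k l r => by simpa only [K, dif_pos l] using MK _ _
  have eE : ∀ f : W → ℝ, ∑' y, U.wt y / U.Z * f (π y) = U.Ex fun y => f (π y) := fun f => by
    rw [Ex, ← tsum_div_const]; exact tsum_congr fun y => by ring
  have hE : Mn fun f : W → ℝ => U.Ex fun y => f (π y) := by
    have := Mn.tsum (fun y => div_nonneg (wt_pos (T := U) y).le o.Z_pos.le)
      (o.summable.div_const _) (by rw [tsum_div_const]; exact (div_self o.Z_pos.ne').le) π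
    simpa only [eE] using this
  have pS : ∀ S : Set W, (U.Ex fun y => S.indicator 1 (π y)) = U.pr (π ⁻¹' S) := fun S => by
    rw [pr_eq]; rfl
  have eA : π ⁻¹' (ι ⁻¹' A) = A := Set.ext fun y =>
    ⟨hA _ _ (ιπ y), hA _ _ fun c d => (ιπ y c d).symm⟩
  have key := add_chain hE hK (A := ι ⁻¹' A) a0 γ0 (fun k l S i p => ?_) Q le_rfl _ Set.Subset.rfl
    (by rw [pS, eA]; exact hQ)
  · let R : ℕ → Set (C → ℤ) := fun m =>
      {w | ∀ i, U.Rel univ {x} w 1 (m * B) (df (sm U s σ m) (G i))}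
    have main : ∀ m ≤ Q, ∀ y, ch K m (π y) ≤ J U s ((R m).indicator 1) m y := by
      intro m
      induction m with
      | zero =>
        intro _ y
        have : y ∈ R 0 := fun i => (Rel.zero (by simp)).congr fun p _ => by
          rw [df, show sm U s σ 0 = id from funext fun c => if_neg (by simp), pm_id, sub_self]
        simp [ch, J, this]
      | succ m ih =>
        intro l y
        have l' : m < Q := l
        have M := mn_bm o (s true ⟨m, l'⟩) y U1.one id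
        have := M.mono (((U1.ind (g ⟨m, l'⟩)).comp (U.jn (s true ⟨m, l'⟩) y)).mul
          ((ch_u1 hK m l'.le).comp fun n => π (U.jn (s true ⟨m, l'⟩) y n ∘ τ ⟨m, l'⟩)))
          ((J_u1 (s := s) o (U1.ind (R (m + 1))) m).comp (U.jn (s true ⟨m, l'⟩) y)) fun n => ?_
        · simp only [ch, K, dif_pos l', Kc, J]
          simpa using this
        generalize U.jn (s true ⟨m, l'⟩) y n = v
        have u := U1.ind (g ⟨m, l'⟩) v
        refine (mul_le_mul_of_nonneg_left (ih l'.le _) u.1).trans (J_le o (U1.ind _) (U1.ind _)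
          u.1 u.2 m v (fun e p => ?_) fun v' q => ?_)
        · have n : (⟨m, l'⟩ : Fin Q) ≠ e := fun r => by rw [← r] at p; simp at p
          exact ⟨fun c c' => h.fix' n, fun c => (h.mem_τ _ c fun b => h.ne n _ _).1⟩
        by_cases p : v ∈ g ⟨m, l'⟩
        · by_cases r : v' ∘ τ ⟨m, l'⟩ ∈ R m
          · have : v' ∈ R (m + 1) := fun i => by
              have p' := gc _ v v' (fun c d => (q c fun e k z => disjoint_left.1 d z
                (mem_erase.2 ⟨fun z => by simp [(h.inj _ _ _ _ z).2] at k,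
                  mem_S1.2 ⟨e, rfl⟩⟩)).symm) p i
              refine (((p'.monoA (subset_univ _)).add (h.rel_pm _ (r i))).congr
                fun z _ => ?_).mono (le_of_eq (by push_cast; ring))
              simp only [df, pm_pm]
              rw [show sm U s σ (m + 1) = _ from (h.sm_succ ⟨m, l'⟩).symm]
              ring
            simp [p, r, this]
          · simpa [r] using (U1.ind (R (m + 1)) v').1
        · simpa [p] using (U1.ind (R (m + 1)) v').1
    have e : sm U s σ Q = σ := funext fun c => by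
      unfold sm
      split_ifs with p
      · rfl
      · exact (h.σ0 c fun b k q => p ⟨k, k.2, b, q⟩).symm
    have u := (U1.ind A).mul (U1.ind (R Q))
    refine key.trans ((o.Ex_mono (U1.abs (((U1.ind _).mul (ch_u1 hK Q le_rfl)).comp π))
      (U1.abs (J_u1 (s := s) o u Q)) fun y => ?_).trans_eq ?_)
    · have v := U1.ind A y
      rw [show (ι ⁻¹' A).indicator (1 : W → ℝ) (π y) = A.indicator 1 y from
        congrArg (fun S : Set (C → ℤ) => S.indicator (1 : (C → ℤ) → ℝ) y) eA]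
      refine (mul_le_mul_of_nonneg_left (main Q le_rfl y) v.1).trans
        (J_le o (U1.ind _) u v.1 v.2 (t := id) Q y (fun _ _ => ⟨fun _ _ _ _ => rfl, fun _ => id⟩)
          fun y' q => mul_le_mul_of_nonneg_right ?_ (U1.ind _ _).1)
      by_cases p : y ∈ A
      · have : y' ∈ A := hA _ _ (fun c d => (q c fun e _ z =>
          disjoint_left.1 d z (mem_S1.2 ⟨e, rfl⟩)).symm) p
        simp [p, this]
      · simpa [p] using (U1.ind A y').1
    · rw [Ex_J o u, pr_eq]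
      congr 1
      funext y
      have r : {w | w ∈ A ∧ ∀ i, U.Rel univ {x} w 1 (Q * B) (df σ (G i))} = A ∩ R Q := by
        simp only [R, e]; rfl
      rw [r, Set.inter_indicator_one]
      rfl
  · rw [pS] at p
    refine (hR ⟨k, l⟩ (π ⁻¹' S) (eA ▸ Set.preimage_mono i) (fun y y' e q => ?_) p).trans_eq ?_
    · rwa [Set.mem_preimage, ← show π y = π y' from funext fun c => e c.1 c.2]
    rw [pr_eq, o.Ex_res (s true ⟨k, l⟩) (abs_ind _)]
    congr 1
    funext y
    simp only [K, dif_pos l, Kc, Kf, ← integral_const_mul]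
    refine congrArg _ (funext fun n => ?_)
    have e : π (U.jn (s true ⟨k, l⟩) y n) = π y := funext fun c =>
      jn_out _ _ fun q => disjoint_left.1 c.2 q (mem_S1.2 ⟨_, rfl⟩)
    by_cases p1 : π y ∈ S <;> by_cases p2 : U.jn (s true ⟨k, l⟩) y n ∈ g ⟨k, l⟩ <;>
      by_cases p3 : π (U.jn (s true ⟨k, l⟩) y n ∘ τ ⟨k, l⟩) ∈ S <;>
      simp only [Set.indicator, Set.mem_ofPred_eq, Set.mem_preimage, e, p1, p2, p3, if_true, if_false,
        Pi.one_apply, mul_one, mul_zero, true_and, false_and] <;>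
      first | exact if_pos p2 | exact if_neg p2

theorem fatr_of (h1 : RFS) (h2 : RFR) : FATR := by
  intro L C D _ _ _ _ Q T j x fn a1 a2 F H m o f n m1 hQ hF ⟨A, i, r, p, t⟩
  have e := (h2 L C Q T j x fn a1 a2 (fun _ => 0) o n Dat.zero).2.2.1
  have q : (m : ℝ) + 1 ≤ 2 ^ m := by exact_mod_cast Nat.lt_two_pow_self
  have q' : (Q : ℝ) ≤ m := by exact_mod_cast hQ
  have w := h1 L C Q T j x fn a1 a2 o f n
  have k := chn _ _ D Q _ _ _ _ _ _ A ((1 / 2) ^ (2 * m)) _ _ w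
    (fun i => (h2 L C Q T j x fn a1 a2 _ o n (hF i)).1) r (by positivity) (by positivity)
    (le_trans (by
      rw [two_mul, pow_add, ← mul_assoc]
      refine mul_le_of_le_one_left (by positivity) ?_
      rw [one_div, inv_pow, mul_inv_le_iff₀ (by positivity)]; linarith) p) t
  have b : (Q : ℝ) * 2 ^ (3 * m) ≤ 2 ^ (4 * m) := by
    rw [show 4 * m = m + 3 * m by ring, pow_add]
    exact mul_le_mul_of_nonneg_right (by linarith) (by positivity)
  have b' : (1 / 2 : ℝ) ^ (8 * m ^ 2) ≤ (1 / 2) ^ (2 * m) * ((1 / 2) ^ (5 * m) / 2) ^ Q := by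
    rw [div_eq_mul_one_div ((1 / 2 : ℝ) ^ (5 * m)), ← pow_succ, ← pow_mul, ← pow_add]
    exact pow_le_pow_of_le_one (by norm_num) (by norm_num) (by nlinarith)
  have c := w.ok.pr_mono (H' := {w | T.cor j 0 w ∈ H ∧ ∀ d,
    T.RR univ {x} j a1 a2 w 1 (2 ^ (4 * m)) fun _ => F d})
    (H := {w | w ∈ A ∧ ∀ i, (RF T j fn a1 a2).Rel univ {.inl (.inl x)} w 1 (Q * 2 ^ (3 * m))
      (df (sg T j) (Gt T j (F i)))}) fun y z => ⟨i z.1, fun d =>
      (h2 L C Q T j x fn a1 a2 _ o n (hF d)).2.2.2 y _ ((z.2 d).mono b)⟩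
  refine b'.trans (k.trans (c.trans_eq ?_))
  unfold TT.RM0 TT.pr
  simp only [e]

end Crest.Agent.N49.Ft

end
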