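import Crest.Agent.N49.Rm.Dl
import Crest.Agent.N49.Rm.Kit
import Crest.Agent.N49.Rm.Law
import Crest.Agent.N49.Rm.Ops
import Crest.Agent.N49.Rm.Hk
import Crest.Agent.N49.Gw.Br
import Crest.Agent.N49.Gw.Add

/-!
# Row 49 (helper96): rectangles in a fat direction, clone after clone (FROZEN statements)
-/

set_option autoImplicit false
set_option linter.unusedSectionVars false

open Finset Matrix

noncomputable section

namespace Crest.Agent.N49.Ft

open Po Rm Rm.TT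

section
variable {L C : Type} [Fintype L] [DecidableEq L] [Fintype C] [DecidableEq C] {Q : ℕ}

/-- permute the words -/
def pm (τ : C → C) (p : C ⊕ L → ℝ) : C ⊕ L → ℝ :=
  Sum.elim (fun c => p (.inl (τ c))) fun ℓ => p (.inr ℓ)

/-- a marked letter `x` and `Q` pairs of exchangeable letters -/
structure Sw (U : TT L C) (x : L) (s : Bool → Fin Q → L) (τ : Fin Q → C → C) (σ : C → C) :
    Prop where
  ok : U.Ok
  inj : ∀ b b' k k', s b k = s b' k' → b = b' ∧ k = k'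
  nx : ∀ b k, s b k ≠ x
  one : ∀ c b b' k k', s b k ∈ U.ty c → s b' k' ∈ U.ty c → b = b' ∧ k = k'
  inv : ∀ k c, τ k (τ k c) = c
  fix : ∀ k c, s false k ∉ U.ty c → s true k ∉ U.ty c → τ k c = c
  ty : ∀ k c, U.ty (τ k c) = (U.ty c).image (Equiv.swap (s false k) (s true k))
  Φ : ∀ k p c, U.Φ (pm (τ k) p) c = U.Φ p (τ k c)
  σ0 : ∀ c, (∀ b k, s b k ∉ U.ty c) → σ c = c
  σ1 : ∀ c b k, s b k ∈ U.ty c → σ c = τ k c

/-- the second letters -/
def S1 (s : Bool → Fin Q → L) : Finset L := univ.image (s true)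
/-- the second letters and one first letter -/
def S3 (s : Bool → Fin Q → L) (k : Fin Q) : Finset L := insert (s false k) (S1 s)
/-- the second letters but one -/
def S4 (s : Bool → Fin Q → L) (k : Fin Q) : Finset L := (S1 s).erase (s true k)

variable (U : TT L C) (S : Finset L) (x : L)

/-- the point of the `x`-fibre over `w` with the `x`-words `v` -/
def pt (w v : C → ℤ) : C ⊕ L → ℝ := U.jr x (cf w) (fun c => (v c.1 : ℝ)) 0
/-- the form on the `x`-words that miss `S` -/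
abbrev Mx (w : C → ℤ) : Matrix ((U.dls S).Bl x) ((U.dls S).Bl x) ℝ := (U.dls S).Mm x w
/-- extension by zero -/
abbrev ex (n : (U.dls S).Bl x → ℤ) : C → ℤ := (U.dls S).jn x 0 n
/-- the difference along a permutation -/
def df (τ : C → C) (F : Fm L C) : Fm L C := fun p => F p - F (pm τ p)
end

/-- relations of a deleted tower -/
def RLD : Prop := ∀ (L C : Type) [Fintype L] [DecidableEq L] [Fintype C] [DecidableEq C]
  (U : TT L C) (S : Finset L) (x : L) (w : C → ℤ) (F : Fm L C), U.Ok → x ∉ S →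
  U.Dat (univ \ S) {x} F → (U.dls S).Ok ∧ (U.dls S).Lin x F ∧
    (∀ n, F (pt U x w (ex U S x n)) = (U.dls S).fq x F w ⬝ᵥ zc n) ∧
    (∀ n, gs (Mx U S x w) (zc n) = Real.exp (-Real.pi *
      ∑ c with x ∈ (U.dls S).ty c, U.Φ (pt U x w (ex U S x n)) c ^ 2)) ∧
    ∀ B, (U.dls S).Rel univ {x} w 1 B F → U.Rel (univ \ S) {x} w 1 B F

/-- **the chain** -/
def CHN : Prop := ∀ (L C D : Type) [Fintype L] [DecidableEq L] [Fintype C] [DecidableEq C]
  (Q : ℕ) (U : TT L C) (x : L) (s : Bool → Fin Q → L) (τ : Fin Q → C → C) (σ : C → C)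
  (G : D → Fm L C) (A : Set (C → ℤ)) (a γ B : ℝ), Sw U x s τ σ →
  (∀ i, U.Dat (univ \ S1 s) {x} (G i)) → U.Rd (S1 s) A → 0 < a → 0 < γ → (Q + 1) * a ≤ U.pr A →
  (∀ k, ∀ S ⊆ A, U.Rd (S1 s) S → a ≤ U.pr S → γ ≤ U.pr {w | w ∈ S ∧ w ∘ τ k ∈ S ∧ ∀ i,
    U.Rel (univ \ S4 s k) {x} w 1 B (df (τ k) (G i))}) →
  a * (γ / 2) ^ Q ≤ U.pr {w | w ∈ A ∧ ∀ i, U.Rel univ {x} w 1 (Q * B) (df σ (G i))}

/-- **good transitions**: the hypothesis `(R)` -/
def Trn {L C D : Type} [Fintype L] [DecidableEq L] [Fintype C] [DecidableEq C] {Q : ℕ}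
    (U : TT L C) (x : L) (s : Bool → Fin Q → L) (τ : Fin Q → C → C) (G : D → Fm L C)
    (H : Set (C → ℤ)) (m : ℕ) : Prop := ∃ A ⊆ H, U.Rd (S1 s) A ∧ (1 / 2 : ℝ) ^ m ≤ U.pr A ∧
  ∀ k, ∀ S ⊆ A, U.Rd (S1 s) S → (1 / 2 : ℝ) ^ (2 * m) ≤ U.pr S →
    (1 / 2 : ℝ) ^ (5 * m) ≤ U.pr {w | w ∈ S ∧ w ∘ τ k ∈ S ∧ ∀ i,
      U.Rel (univ \ S4 s k) {x} w 1 (2 ^ (3 * m)) (df (τ k) (G i))}

section rect
variable {L C : Type} [Fintype L] [DecidableEq L] [Fintype C] [DecidableEq C] {Q : ℕ}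
  (T : TT L C) (j : L) (fn : C → Fin Q) (a1 a2 : ℕ)

/-- the words of the block `j` see only the words of the same clone -/
def Fine : Prop := ∀ c, j ∈ T.ty c → ∀ p p', (∀ ℓ, p (.inr ℓ) = p' (.inr ℓ)) →
  (∀ c', j ∉ T.ty c' ∨ fn c' = fn c → p (.inl c') = p' (.inl c')) → T.Φ p c = T.Φ p' c

/-- the refined letters of the rectangle -/
abbrev LR (L : Type) (Q : ℕ) : Type := (L ⊕ Fin 4) ⊕ Bool × Fin Q
/-- forget them -/
def co {C' : Type} (p : C' ⊕ LR L Q → ℝ) : C' ⊕ (L ⊕ Fin 4) → ℝ :=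
  Sum.elim (fun c => p (.inl c)) fun ℓ => p (.inr (.inl ℓ))
/-- **the rectangle with the two first directions split into clones** -/
def RF : TT (LR L Q) (T.CC j (Fin 4)) where
  ty := Sum.elim (fun c => (T.ty c).image fun ℓ => .inl (.inl ℓ)) fun cx =>
    insert (if cx.2 = 0 then .inr (false, fn cx.1.1) else if cx.2 = 1 then .inr (true, fn cx.1.1)
      else .inl (.inr cx.2)) (((T.ty cx.1.1).erase j).image fun ℓ => .inl (.inl ℓ))
  Φ p := (T.rect j a1 a2).Φ (co p)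
/-- exchange the two first directions -/
def sg : T.CC j (Fin 4) → T.CC j (Fin 4) := Sum.map id (Prod.map id (Equiv.swap 0 1))
/-- the same for one clone -/
def ta (k : Fin Q) : T.CC j (Fin 4) → T.CC j (Fin 4) :=
  Sum.elim .inl fun cx => if fn cx.1.1 = k then sg T j (.inr cx) else .inr cx
/-- the refined letters -/
def sl (L : Type) (Q : ℕ) (b : Bool) (k : Fin Q) : LR L Q := .inr (b, k)
/-- the difference along the second pair of directions -/
def Gt (F : Fm L C) : Fm (LR L Q) (T.CC j (Fin 4)) := fun p =>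
  F (T.pos j (fun _ => false) 1 (cv 0) (co p)) - F (T.pos j (fun _ => false) 1 (cv 1) (co p))
end rect

/-- the refined rectangle is symmetric -/
def RFS : Prop := ∀ (L C : Type) [Fintype L] [DecidableEq L] [Fintype C] [DecidableEq C] (Q : ℕ)
  (T : TT L C) (j x : L) (fn : C → Fin Q) (a1 a2 : ℕ), T.Ok → Fine T j fn → x ≠ j →
  Sw (RF T j fn a1 a2) (.inl (.inl x)) (sl L Q) (ta T j fn) (sg T j)

/-- data and relations of the refined rectangle -/
def RFR : Prop := ∀ (L C : Type) [Fintype L] [DecidableEq L] [Fintype C] [DecidableEq C] (Q : ℕ)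
  (T : TT L C) (j x : L) (fn : C → Fin Q) (a1 a2 : ℕ) (F : Fm L C), T.Ok → x ≠ j →
  T.Dat univ {x} F → (RF T j fn a1 a2).Dat (univ \ S1 (sl L Q)) {.inl (.inl x)} (Gt T j F) ∧
  (∀ H : Set (C → ℤ), (RF T j fn a1 a2).Rd (S1 (sl L Q)) {w | T.cor j 0 w ∈ H}) ∧
  (RF T j fn a1 a2).wt = (T.rect j a1 a2).wt ∧
  ∀ w B, (RF T j fn a1 a2).Rel univ {.inl (.inl x)} w 1 B (df (sg T j) (Gt T j F)) →
    T.RR univ {x} j a1 a2 w 1 B fun _ => F

/-- **fat rectangles** -/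
def FATR : Prop := ∀ (L C D : Type) [Fintype L] [DecidableEq L] [Fintype C] [DecidableEq C]
  (Q : ℕ) (T : TT L C) (j x : L) (fn : C → Fin Q) (a1 a2 : ℕ) (F : D → Fm L C)
  (H : Set (C → ℤ)) (m : ℕ), T.Ok → Fine T j fn → x ≠ j → 1 ≤ m → Q ≤ m →
  (∀ i, T.Dat univ {x} (F i)) → Trn (RF T j fn a1 a2) (.inl (.inl x)) (sl L Q) (ta T j fn)
    (fun i => Gt T j (F i)) {w | T.cor j 0 w ∈ H} m →
  (1 / 2 : ℝ) ^ (8 * m ^ 2) ≤ T.RM0 univ {x} j H 1 (2 ^ (4 * m)) (fun _ => F) a1 a2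

end Crest.Agent.N49.Ft

end
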